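import Mathlib

/-! P271: definitions used in the proof (see `notes/P271.md`). -/

open MeasureTheory Set Filter Topology
open scoped ContDiff ENNReal ComplexConjugate

noncomputable section

namespace Vale.Agent.P271

/-- Coordinate space. -/
abbrev E (n : ℕ) := Fin n → ℂ

/-- Wirtinger derivative `∂ / ∂ y_j` on the coordinate space. -/
def dz {n : ℕ} (j : Fin n) (f : E n → ℂ) (y : E n) : ℂ :=
  (fderiv ℝ f y (Pi.single j 1) - Complex.I * fderiv ℝ f y (Pi.single j Complex.I)) / 2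

/-- Wirtinger derivative `∂ / ∂ conj y_j` on the coordinate space. -/
def dzb {n : ℕ} (j : Fin n) (f : E n → ℂ) (y : E n) : ℂ :=
  (fderiv ℝ f y (Pi.single j 1) + Complex.I * fderiv ℝ f y (Pi.single j Complex.I)) / 2

/-- An etale domain over `ℂ ^ n`: a local homeomorphism `π` with chosen sheets and the pulled back
Lebesgue measure. Always used with `[T2Space Ω] [SecondCountableTopology Ω] [BorelSpace Ω]`. -/
structure EtDom (n : ℕ) (Ω : Type) [TopologicalSpace Ω] [MeasurableSpace Ω] where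
  π : Ω → E n
  ch : Ω → OpenPartialHomeomorph Ω (E n)
  mem : ∀ z, z ∈ (ch z).source
  coe : ∀ z, ⇑(ch z) = π
  ν : Measure Ω
  ν_ch : ∀ z S, MeasurableSet S → S ⊆ (ch z).source → ν S = volume (π '' S)

namespace EtDom

variable {n : ℕ} {Ω : Type} [TopologicalSpace Ω] [MeasurableSpace Ω] (D : EtDom n Ω)

/-- A function read in the sheet at `z`. -/
def loc {F : Type} (f : Ω → F) (z : Ω) : E n → F := f ∘ (D.ch z).symm

/-- Smooth at `z`. -/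
def SmAt {F : Type} [NormedAddCommGroup F] [NormedSpace ℝ F] (f : Ω → F) (z : Ω) : Prop :=
  ContDiffAt ℝ ∞ (D.loc f z) (D.π z)

/-- Holomorphic at (and near) `z`. -/
def HolAt (f : Ω → ℂ) (z : Ω) : Prop := AnalyticAt ℂ (D.loc f z) (D.π z)

/-- Real derivative at `z`. -/
def fd (f : Ω → ℂ) (z : Ω) : E n →L[ℝ] ℂ := fderiv ℝ (D.loc f z) (D.π z)

/-- `∂ f / ∂ y_j`. -/
def d (j : Fin n) (f : Ω → ℂ) (z : Ω) : ℂ := dz j (D.loc f z) (D.π z)

/-- `∂ f / ∂ conj y_j`. -/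
def db (j : Fin n) (f : Ω → ℂ) (z : Ω) : ℂ := dzb j (D.loc f z) (D.π z)

/-- `∂ u` applied to the vector `v`, for a real function `u`. -/
def dv (u : Ω → ℝ) (z : Ω) (v : E n) : ℂ := ∑ j, D.d j (fun w => (u w : ℂ)) z * v j

/-- The Levi form. -/
def levi (u : Ω → ℝ) (z : Ω) (v : E n) : ℝ :=
  (∑ j, ∑ k, D.d j (D.db k fun w => (u w : ℂ)) z * v j * conj (v k)).re

/-- Smooth and plurisubharmonic at `z`. -/
def Psh (u : Ω → ℝ) (z : Ω) : Prop := D.SmAt u z ∧ ∀ v, 0 ≤ D.levi u z v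

/-- Test functions. -/
def Test (v : Ω → ℂ) : Prop := (∀ z, D.SmAt v z) ∧ HasCompactSupport v

/-- An open set with a smooth plurisubharmonic exhaustion. -/
def Stein (W : Set Ω) : Prop :=
  IsOpen W ∧ ∃ ρ : Ω → ℝ, (∀ z ∈ W, D.Psh ρ z) ∧ ∀ τ : ℝ, IsCompact {z | z ∈ W ∧ ρ z ≤ τ}

/-- `G ^ (-γ)` is not integrable on any neighbourhood of `z`. -/
def NI (G : Ω → ℝ) (z : Ω) (γ : ℝ) : Prop :=
  ∀ N ∈ 𝓝 z, ∫⁻ w in N, ENNReal.ofReal (G w) ^ (-γ) ∂D.ν = ⊤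

/-- The singularity exponent of `G` at `z` is at most `c`. -/
def Adm (G : Ω → ℝ) (z : Ω) (c : ℝ) : Prop := ∀ γ, c < γ → D.NI G z γ

end EtDom

/-- The weighted sum `∑ |s i| ^ (2 / a i)` over the indices of positive weight. -/
def wE {Ω ι : Type} [Fintype ι] (s : ι → Ω → ℂ) (a : ι → ℝ) (z : Ω) : ℝ :=
  ∑ i, if 0 < a i then ‖s i z‖ ^ (2 / a i) else 0

/-- Polynomials of degree at most `k` in the generators `x`. -/
def Vk {A : Type} [CommRing A] [Algebra ℂ A] {M : ℕ} (x : Fin M → A) (k : ℕ) : Submodule ℂ A :=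
  Submodule.span ℂ (insert 1 (range x)) ^ k

/-- The ideal spanned by the monomials in `G` of weight at least `l`. -/
def Jw {A ι : Type} [CommRing A] [Fintype ι] (G : ι → A) (w : ι → ℝ) (l : ℝ) : Ideal A :=
  Ideal.span {g | ∃ m : ι → ℕ, l ≤ ∑ i, (m i : ℝ) * w i ∧ g = ∏ i, G i ^ m i}

/-- An affine variety with coordinate ring `A`, generators `x`, and the open set `Ω = {h ≠ 0}` on
which the coordinates `x ∘ σ` are etale. -/
structure Aff (n M : ℕ) (A Ω : Type) [CommRing A] [Algebra ℂ A] [TopologicalSpace Ω]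
    [MeasurableSpace Ω] extends EtDom n Ω where
  x : Fin M → A
  gen : Algebra.adjoin ℂ (range x) = ⊤
  σ : Fin n → Fin M
  h : A
  ev : Ω → A →ₐ[ℂ] ℂ
  ev_h : ∀ z, ev z h ≠ 0
  surj : ∀ φ : A →ₐ[ℂ] ℂ, φ h ≠ 0 → ∃ z, ev z = φ
  emb : IsEmbedding fun z i => ev z (x i)
  π_eq : ∀ z j, π z j = ev z (x (σ j))
  hol : ∀ a z, toEtDom.HolAt (fun w => ev w a) z
  unr : ∀ z i, ∃ c : Fin n → ℂ, x i - algebraMap ℂ A (ev z (x i)) -
    ∑ j, c j • (x (σ j) - algebraMap ℂ A (ev z (x (σ j)))) ∈ RingHom.ker (ev z) ^ 2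
  tb : IsTranscendenceBasis ℂ (x ∘ σ)

/-- `1 + ∑ |x i| ^ 2`. -/
def Aff.nrm {n M : ℕ} {A Ω : Type} [CommRing A] [Algebra ℂ A] [TopologicalSpace Ω]
    [MeasurableSpace Ω] (X : Aff n M A Ω) (z : Ω) : ℝ := 1 + ∑ i, ‖X.ev z (X.x i)‖ ^ 2

/-- The degree hypothesis: subvarieties of dimension `d` have degree at least `p ^ d`. -/
def DegHyp {A : Type} [CommRing A] [Algebra ℂ A] {M : ℕ} (x : Fin M → A) (p : ℕ) : Prop :=
  ∀ (𝔭 : Ideal A), 𝔭.IsPrime → ∀ (d : ℕ) (y : Fin d → A ⧸ 𝔭), IsTranscendenceBasis ℂ y → ∀ k,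
    p ^ d * (k + d).choose d ≤
      Module.finrank ℂ ((Vk x (k + p ^ d)).map (Ideal.Quotient.mkₐ ℂ 𝔭).toLinearMap)

/-- A valuation with one-dimensional leaves on the subspace `W`. -/
structure IsLeaf {A Λ : Type} [AddCommGroup A] [Module ℂ A] [LinearOrder Λ] (W : Submodule ℂ A)
    (ℓ : A → Λ) : Prop where
  add : ∀ f ∈ W, ∀ g ∈ W, f ≠ 0 → g ≠ 0 → f + g ≠ 0 → min (ℓ f) (ℓ g) ≤ ℓ (f + g)
  smul : ∀ f ∈ W, f ≠ 0 → ∀ c : ℂ, c ≠ 0 → ℓ (c • f) = ℓ f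
  leaf : ∀ f ∈ W, ∀ g ∈ W, f ≠ 0 → g ≠ 0 → ℓ f = ℓ g →
    ∃ c : ℂ, f - c • g = 0 ∨ ℓ f < ℓ (f - c • g)

/-- A basis of `V K` adapted to the flag `V 0 ≤ ⋯ ≤ V K`, with levels `κ`. -/
structure FlagBasis {A : Type} [AddCommGroup A] [Module ℂ A] (V : ℕ → Submodule ℂ A) (K : ℕ)
    {ι : Type} (s : ι → A) (κ : ι → ℕ) : Prop where
  le : ∀ i, κ i ≤ K
  mem : ∀ i, s i ∈ V (κ i)
  li : LinearIndependent ℂ s
  span : ∀ k ≤ K, V k ≤ Submodule.span ℂ (s '' {i | κ i ≤ k})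

/-- The partition function. -/
def Zf {ι : Type} [Fintype ι] (κ : ι → ℕ) (a : ι → ℝ) (μ b : ℝ) : ℝ :=
  ∑ i, Real.exp (-(μ * κ i) - b * a i)

end Vale.Agent.P271
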